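import Vale.Agent.P235.H684.End

set_option linter.all false

/-!
# K5, the glue: trees of torsos, laws of the torsos, and the total cut measure

Letters: torsos `Fin T`, vertices `Fin n` ordered torso by torso, `Z.tor v` = the torso in which
`v` is new, `Z.S t` = the adhesion of `t` (at most `k` vertices), `Z.up t` = the parent of `t`,
`Z.H t` = the torso.
-/

namespace Vale.Agent.P235.K5

open Finset Function Vale.Agent.P235.H684

/-- a rooted tree of torsos on the vertices `Fin n` -/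
structure Tor (n T k : ℕ) where
  tor : Fin n → Fin T
  mono : Monotone tor
  surj : Surjective tor
  S : Fin T → Finset (Fin n)
  up : Fin T → Fin T
  up_le : ∀ t, up t ≤ t
  up_lt : ∀ t : Fin T, 0 < t.val → up t < t
  root : ∀ t, up t = t → S t = ∅
  low : ∀ t, ∀ a ∈ S t, tor a < t
  sub : ∀ t, ∀ a ∈ S t, a ∈ S (up t) ∨ tor a = up t
  card : ∀ t, (S t).card ≤ k

namespace Tor

variable {n T k : ℕ} (Z : Tor n T k)

/-- the torso -/
def H (t : Fin T) : Finset (Fin n) := Z.S t ∪ Finset.univ.filter fun v => Z.tor v = t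

/-- the tree of the torsos (in the letters of `H684`, with empty adhesions) -/
def tree : Elim T where
  A := fun _ => ∅
  par := Z.up
  lt := by simp
  par_le := Z.up_le
  root := by simp
  sub := by simp

/-- `v` is new in the subtree of `t` -/
def Below (t : Fin T) (v : Fin n) : Prop := Z.tree.Desc t (Z.tor v)

/-- a metric separated by the adhesions -/
structure Sep (d : Fin n → Fin n → ℝ) : Prop where
  self : ∀ i, d i i = 0
  pos : ∀ i j, i ≠ j → 0 < d i j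
  symm : ∀ i j, d i j = d j i
  tri : ∀ i j l, d i l ≤ d i j + d j l
  sep : ∀ t p q, Z.Below t p → ¬ Z.Below t q → ∃ a ∈ Z.S t, d p q = d p a + d a q

/-- the laws of the torsos are consistent on the adhesions -/
def ConsT (μ : Fin T → (Fin n → Bool) → ℝ) : Prop :=
  ∀ t, Z.up t ≠ t → ∀ h : (Fin n → Bool) → ℝ, DepOn (Z.S t : Set (Fin n)) h →
    Ex (μ t) h = Ex (μ (Z.up t)) h

/-- a coupling of the torso laws along a path `s 1, …, s N` of torsos (downwards; `s 0` is the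
parent of `s 1` and does not enter), in which `z` is never guessed better than `c` from the cut
on the top adhesion `S (s 1)` -/
structure CoupT (μ : Fin T → (Fin n → Bool) → ℝ) (s : ℕ → Fin T) (N : ℕ) (z : Fin n) (c : ℝ)
    {Ω : Type} [Fintype Ω] (w : Ω → ℝ) (X : ℕ → Ω → (Fin n → Bool)) : Prop where
  nonneg : ∀ ω, 0 ≤ w ω
  bag : ∀ i, 1 ≤ i → i ≤ N → ∀ h : (Fin n → Bool) → ℝ, DepOn (Z.H (s i) : Set (Fin n)) h →
    ∑ ω, w ω * h (X i ω) = Ex (μ (s i)) h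
  agree : ∀ i, 1 ≤ i → i < N → ∀ ω, w ω ≠ 0 → ∀ v ∈ Z.S (s (i + 1)), X i ω v = X (i + 1) ω v
  far : ∀ f : (Fin n → Bool) → ℝ, (∀ Y, f Y = 0 ∨ f Y = 1) →
    DepOn (Z.S (s 1) : Set (Fin n)) f →
    c ≤ ∑ ω, w ω * |f (X 1 ω) - (if X N ω z = true then 1 else 0)|

/-- **Output of Theorem N** (no lower bound on the torsos): freshness along the paths. -/
def NLaw (d : Fin n → Fin n → ℝ) (C1 : ℝ) : Prop :=
  ∃ (μ : Fin T → (Fin n → Bool) → ℝ) (Λ : ℝ), 0 < Λ ∧ (∀ t, IsLaw (μ t)) ∧ Z.ConsT μ ∧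
    (∀ t, ∀ p ∈ Z.H t, ∀ p' ∈ Z.H t, Λ * Ex (μ t) (dif p p') ≤ d p p') ∧
    (∀ (s : ℕ → Fin T) (N : ℕ), Path Z.tree s N → ∀ z : Fin n, Z.tor z = s N →
      ∀ r : ℝ, 0 < r → (∀ a ∈ Z.S (s 1), r ≤ d z a) →
      ∃ (c : ℝ) (Ω : Type) (_ : Fintype Ω) (w : Ω → ℝ) (X : ℕ → Ω → (Fin n → Bool)),
        Z.CoupT μ s N z c w X ∧ r ≤ C1 * (Λ * c))

/-- **Output of the capture half**: laws of the torsos, consistent on the adhesions, which are
nonexpanding and at least `d / D` on every torso. -/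
def ALaw (d : Fin n → Fin n → ℝ) (D : ℝ) : Prop :=
  ∃ (μ : Fin T → (Fin n → Bool) → ℝ) (Λ : ℝ), 0 < Λ ∧ (∀ t, IsLaw (μ t)) ∧ Z.ConsT μ ∧
    (∀ t, ∀ p ∈ Z.H t, ∀ p' ∈ Z.H t,
      d p p' / D ≤ Λ * Ex (μ t) (dif p p') ∧ Λ * Ex (μ t) (dif p p') ≤ d p p')

/-- the semimetric of a cut measure -/
noncomputable def cm (c : (Fin n → Bool) → ℝ) (i j : Fin n) : ℝ := ∑ X, c X * dif i j X

/-- **PRESC for the tree**: on every torso, every cut semimetric between `d / D` and `d` on the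
adhesion extends to one between `d / D` and `d` on the torso. -/
def Presc (d : Fin n → Fin n → ℝ) (D : ℝ) : Prop :=
  ∀ t, ∀ c : (Fin n → Bool) → ℝ, (∀ X, 0 ≤ c X) →
    (∀ a ∈ Z.S t, ∀ b ∈ Z.S t, d a b / D ≤ cm c a b ∧ cm c a b ≤ d a b) →
    ∃ c' : (Fin n → Bool) → ℝ, (∀ X, 0 ≤ c' X) ∧
      (∀ a ∈ Z.S t, ∀ b ∈ Z.S t, cm c' a b = cm c a b) ∧
      ∀ p ∈ Z.H t, ∀ q ∈ Z.H t, d p q / D ≤ cm c' p q ∧ cm c' p q ≤ d p q

/-- the total cut measure -/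
def Total (d : Fin n → Fin n → ℝ) (c : ℝ) : Prop :=
  ∃ (Ω : Type) (_ : Fintype Ω) (P : Ω → ℝ) (X : Ω → Fin n → Bool), (∀ σ, 0 ≤ P σ) ∧
    (∀ i j, ∑ σ, P σ * (if X σ i = X σ j then 0 else 1) ≤ d i j) ∧
    ∀ i j, c * d i j ≤ ∑ σ, P σ * (if X σ i = X σ j then 0 else 1)

end Tor

/-! ### The rows -/

/-- **[ELIM]** the elimination tree of the tree of torsos: inside a torso the new vertices form a
path, the first new vertex of a torso hangs below the last new vertex of its parent. -/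
def ElimStmt : Prop :=
  ∀ {n T k : ℕ} (Z : Tor n T k), ∃ (E : Elim n) (fi la : Fin T → Fin n),
    (∀ t, Z.tor (fi t) = t) ∧ (∀ t, Z.tor (la t) = t) ∧
    (∀ t, E.A (fi t) = Z.S t) ∧ (∀ t, E.B (la t) = Z.H t) ∧
    (∀ v, E.B v ⊆ Z.H (Z.tor v)) ∧
    (∀ t, Z.up t ≠ t → E.par (fi t) = la (Z.up t)) ∧
    (∀ v, v ≠ fi (Z.tor v) → Z.tor (E.par v) = Z.tor v ∧ E.par v ≠ v) ∧
    (∀ t, Z.up t = t → E.par (fi t) = fi t) ∧
    (∀ v, E.Desc (fi (Z.tor v)) v) ∧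
    (∀ t v, E.Desc (fi t) v ↔ Z.Below t v) ∧
    (∀ μ, Z.ConsT μ → Cons E fun v => μ (Z.tor v))

/-- **[LAW]** three-point symmetric laws are determined by their metric: cut measures which agree
on the adhesions become consistent laws of one total mass. -/
def LawStmt : Prop :=
  ∀ {n T : ℕ} (Z : Tor n T 3) (c : Fin T → (Fin n → Bool) → ℝ), (∀ t X, 0 ≤ c t X) →
    (∀ t, Z.up t ≠ t → ∀ a ∈ Z.S t, ∀ b ∈ Z.S t, Tor.cm (c t) a b = Tor.cm (c (Z.up t)) a b) →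
    ∃ (μ : Fin T → (Fin n → Bool) → ℝ) (Λ : ℝ), 0 < Λ ∧ (∀ t, IsLaw (μ t)) ∧ Z.ConsT μ ∧
      ∀ t p q, Λ * Ex (μ t) (dif p q) = Tor.cm (c t) p q

/-- **[REC]** the recursion from the root. -/
def RecStmt : Prop :=
  ∀ {n T : ℕ} (Z : Tor n T 3) (d : Fin n → Fin n → ℝ) (D : ℝ), Z.Presc d D → Z.ALaw d D

/-- **[END]** the sum of the two glued laws. -/
def EndStmt : Prop :=
  ∀ (k : ℕ) (D C1 : ℝ), 1 ≤ D → 0 < C1 → ∃ c : ℝ, 0 < c ∧
    ∀ {n T : ℕ} (Z : Tor n T k) (d : Fin n → Fin n → ℝ), 0 < n → Z.Sep d → Z.ALaw d D →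
      Z.NLaw d C1 → Tor.Total d c

/-- **[GLUE]** everything together: what remains is `Presc` (capture half) and `NLaw`
(Theorem N). -/
def GlueStmt : Prop :=
  ∀ (D C1 : ℝ), 1 ≤ D → 0 < C1 → ∃ c : ℝ, 0 < c ∧
    ∀ {n T : ℕ} (Z : Tor n T 3) (d : Fin n → Fin n → ℝ), 0 < n → Z.Sep d → Z.Presc d D →
      Z.NLaw d C1 → Tor.Total d c

theorem glue_of (h1 : RecStmt) (h2 : EndStmt) : GlueStmt := by
  intro D C1 hD hC
  obtain ⟨c, hc, H⟩ := h2 3 D C1 hD hC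
  exact ⟨c, hc, fun Z d hn hs hp hN => H Z d hn hs (h1 Z d D hp) hN⟩

end Vale.Agent.P235.K5
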