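import Vale.Agent.P235.K5.H558.Centre
import Vale.Agent.P235.H105.Glue

/-!
P235, line K5 (3-sums), part CAP.  Literals (helper750, after helper320 #15753, helper500 #14335).
-/

set_option autoImplicit false

namespace Vale.Agent.P235.K5

open SimpleGraph Vale.Agent.P235 Vale.Agent.P235.H134 Vale.Agent.P235.H56
open Vale.Agent.P235.H341W (capG)

/-- pseudometrics -/
structure IsPM {V : Type} (d : V → V → ℝ) : Prop where
  self : ∀ x, d x x = 0
  nonneg : ∀ x y, 0 ≤ d x y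
  symm : ∀ x y, d x y = d y x
  tri : ∀ x y z, d x z ≤ d x y + d y z

/-- `EdgeExact` for pseudometrics -/
def EdgeExact0 {V : Type} (G : SimpleGraph V) (c : ℝ) : Prop :=
  ∀ ρ : V → V → ℝ, IsPM ρ → Gen G ρ → ∀ s t, G.Adj s t →
    ∃ F : V → V → ℝ, IsL1 F ∧ F s t = ρ s t ∧ (∀ x y, c * ρ x y ≤ F x y) ∧
      ∀ x y, F x y ≤ ρ x y

/-- [DEG] -/
def DegStmt : Prop :=
  ∀ (V : Type) [Finite V] (G : SimpleGraph V) (c : ℝ), 0 < c → EdgeExact G c → EdgeExact0 G c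

/-- three pairwise adjacent vertices -/
def TriAdj {V : Type} (G : SimpleGraph V) (R : Fin 3 → V) : Prop :=
  ∀ i j, i ≠ j → G.Adj (R i) (R j)

/-- the path metric of lengths `lam ≤ d`, as a supremum -/
def SupPM {V : Type} (G : SimpleGraph V) (lam D : V → V → ℝ) : Prop :=
  IsPM D ∧ Gen G D ∧ (∀ u v, G.Adj u v → D u v ≤ lam u v) ∧
    ∀ f : V → ℝ, (∀ u v, G.Adj u v → |f u - f v| ≤ lam u v) → ∀ x y, |f x - f y| ≤ D x y

/-- [SUPL] lengths `0 ≤ lam ≤ d` on the edges give a pseudometric -/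
def SuplStmt : Prop :=
  ∀ (V : Type) (G : SimpleGraph V) (d : V → V → ℝ), IsMet d → Gen G d →
    ∀ lam : V → V → ℝ, (∀ u v, 0 ≤ lam u v) → (∀ u v, lam u v = lam v u) →
      (∀ u v, G.Adj u v → lam u v ≤ d u v) → ∃ D : V → V → ℝ, SupPM G lam D

/-- Gromov product of the vertex `R i` of a triple -/
noncomputable def gp {V : Type} (d : V → V → ℝ) (R : Fin 3 → V) (i : Fin 3) : ℝ :=
  (d (R i) (R (i + 1)) + d (R i) (R (i + 2)) - d (R (i + 1)) (R (i + 2))) / 2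

/-- `t i x y`: the change of the `i`-th leg of the tripod -/
noncomputable def leg {V : Type} (d : V → V → ℝ) (R : Fin 3 → V) (i : Fin 3) (x y : V) : ℝ :=
  |min (d x (R i)) (gp d R i) - min (d y (R i)) (gp d R i)|

/-- the lengths `l_i`: here `i` is the middle root, `i + 1`, `i + 2` are the outer ones -/
noncomputable def ll {V : Type} (d : V → V → ℝ) (R : Fin 3 → V) (i : Fin 3) (x y : V) : ℝ :=
  (d x y - (leg d R 0 x y + leg d R 1 x y + leg d R 2 x y)) / 3 +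
    (leg d R (i + 1) x y + leg d R (i + 2) x y) / 2

/-- [LEGS] the three lengths are nonnegative, at most `d`, and sum up to `d` -/
def LegsStmt : Prop :=
  ∀ (V : Type) (d : V → V → ℝ), IsMet d → ∀ R : Fin 3 → V,
    (∀ x y, leg d R 0 x y + leg d R 1 x y + leg d R 2 x y ≤ d x y) ∧
    (∀ i x y, 0 ≤ ll d R i x y) ∧ (∀ i x y, ll d R i x y ≤ d x y) ∧
    ∀ x y, ll d R 0 x y + ll d R 1 x y + ll d R 2 x y = d x y

/-- [LOW] lower bound for the path metrics of the three lengths (with CENTRE) -/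
def LowStmt : Prop :=
  ∀ (V : Type) [Finite V] (G : SimpleGraph V) (d : V → V → ℝ), IsMet d → Gen G d →
    ∀ R : Fin 3 → V, TriAdj G R → ¬ IsMinor K33 (capG G (Set.range R)) →
      ∀ D : Fin 3 → V → V → ℝ, (∀ i, SupPM G (ll d R i) (D i)) →
        ∀ x y, d x y ≤ 6 * (D 0 x y + D 1 x y + D 2 x y)

/-- [LINE] on the triple the path metric of `ll i` is that of a line with `R i` in the middle -/
def LineStmt : Prop :=
  ∀ (V : Type) [Finite V] (G : SimpleGraph V) (d : V → V → ℝ), IsMet d → Gen G d →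
    ∀ R : Fin 3 → V, TriAdj G R → ∀ i, ∀ D : V → V → ℝ, SupPM G (ll d R i) D →
      D (R i) (R (i + 1)) = gp d R (i + 1) / 2 ∧ D (R i) (R (i + 2)) = gp d R (i + 2) / 2 ∧
      D (R (i + 1)) (R (i + 2)) = (gp d R (i + 1) + gp d R (i + 2)) / 2

/-- [TRIISO] -/
def TriIsoStmt : Prop :=
  ∀ (V : Type) [Finite V] (G : SimpleGraph V) (c : ℝ), 0 < c → EdgeExact0 G c →
    ∀ d : V → V → ℝ, IsMet d → Gen G d → ∀ R : Fin 3 → V, TriAdj G R →
      ¬ IsMinor K33 (capG G (Set.range R)) →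
      ∃ F : V → V → ℝ, IsL1 F ∧ (∀ i j, F (R i) (R j) = d (R i) (R j)) ∧
        (∀ x y, c / 6 * d x y ≤ F x y) ∧ ∀ x y, F x y ≤ d x y

/-- [COLLAR] (purely metric) -/
def CollarStmt : Prop :=
  ∀ (V : Type) [Finite V] (d : V → V → ℝ), IsMet d → ∀ R : Fin 3 → V, Function.Injective R →
    ∀ ρ : Fin 3 → Fin 3 → ℝ, IsMet ρ → (∀ i j, ρ i j ≤ d (R i) (R j)) →
      ∃ F : V → V → ℝ, IsL1 F ∧ (∀ i j, F (R i) (R j) = ρ i j) ∧ (∀ x y, F x y ≤ d x y) ∧
        ∀ x y, (∃ i j, d x (R i) + ρ i j + d (R j) y < 1 / 256 * d x y) →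
          ∃ i j, ρ i j + d x (R i) + d (R j) y ≤ F x y

/-- [SHORT3] the metric `d` after shortening the root triple to `ρ` -/
def Short3Stmt : Prop :=
  ∀ (V : Type) (G : SimpleGraph V) (d : V → V → ℝ), IsMet d → Gen G d →
    ∀ R : Fin 3 → V, TriAdj G R → ∀ ρ : Fin 3 → Fin 3 → ℝ, IsMet ρ →
      (∀ i j, ρ i j ≤ d (R i) (R j)) →
      ∃ d' : V → V → ℝ, IsMet d' ∧ Gen G d' ∧ (∀ i j, d' (R i) (R j) = ρ i j) ∧
        (∀ x y, d' x y ≤ d x y) ∧
        ∀ x y, d' x y = d x y ∨ ∃ i j, d' x y = d x (R i) + ρ i j + d (R j) y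

/-- [PRESC] prescribed metric on the root triple -/
def PrescStmt : Prop :=
  ∀ (V : Type) [Finite V] (G : SimpleGraph V) (c : ℝ), 0 < c → c ≤ 1 → EdgeExact G c →
    ∀ d : V → V → ℝ, IsMet d → Gen G d → ∀ R : Fin 3 → V, TriAdj G R →
      ¬ IsMinor K33 (capG G (Set.range R)) →
      ∀ ρ : Fin 3 → Fin 3 → ℝ, IsMet ρ → (∀ i j, c / 12288 * d (R i) (R j) ≤ ρ i j) →
        (∀ i j, ρ i j ≤ d (R i) (R j)) →
        ∃ F : V → V → ℝ, IsL1 F ∧ (∀ i j, F (R i) (R j) = ρ i j) ∧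
          (∀ x y, c / 12288 * d x y ≤ F x y) ∧ ∀ x y, F x y ≤ d x y

end Vale.Agent.P235.K5
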