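import Vale.Agent.P235.H56.Defs

/-!
# P235-K5, Wagner's theorem on graphs without a `K_5` minor: statements (helper261)

Everything is a typed interface: each block proves `theorem … : XStmt`.
-/

namespace Vale.Agent.P235.K5.W

open SimpleGraph Vale.Agent.P235.H134 Vale.Agent.P235.H56

/-- a connected (nonempty) set -/
abbrev Cn {V : Type} (G : SimpleGraph V) (X : Set V) : Prop := (G.induce X).Connected

/-- an edge between `X` and `Y` -/
def Ad {V : Type} (G : SimpleGraph V) (X Y : Set V) : Prop := ∃ x ∈ X, ∃ y ∈ Y, G.Adj x y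

/-- `K_5` -/
abbrev K5 : SimpleGraph (Fin 5) := ⊤

/-- `V_8`: the cycle `0, 1, …, 7` with its four long diagonals -/
def V8 : SimpleGraph (Fin 8) := SimpleGraph.fromRel fun i j => j = i + 1 ∨ j = i + 4

/-- a spanning model of `H` -/
structure Sp {V W : Type} (H : SimpleGraph W) (G : SimpleGraph V) (μ : W → Set V) : Prop where
  conn : ∀ a, Cn G (μ a)
  disj : ∀ a b, a ≠ b → Disjoint (μ a) (μ b)
  adj : ∀ a b, H.Adj a b → Ad G (μ a) (μ b)
  cover : ∀ x, ∃ a, x ∈ μ a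

/-- a spanning model of `K_{3,3}` -/
structure Mod {V : Type} (G : SimpleGraph V) (A B : Fin 3 → Set V) : Prop where
  connA : ∀ i, Cn G (A i)
  connB : ∀ i, Cn G (B i)
  dA : ∀ i j, i ≠ j → Disjoint (A i) (A j)
  dB : ∀ i j, i ≠ j → Disjoint (B i) (B j)
  dAB : ∀ i j, Disjoint (A i) (B j)
  cover : ∀ x, (∃ i, x ∈ A i) ∨ ∃ j, x ∈ B j
  adj : ∀ i j, Ad G (A i) (B j)

/-- `T` is the disjoint union of the connected sets `X` and `Y` -/
structure Split {V : Type} (G : SimpleGraph V) (T X Y : Set V) : Prop where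
  un : X ∪ Y = T
  dis : Disjoint X Y
  cx : Cn G X
  cy : Cn G Y
  xy : Ad G X Y

/-- `T` is the disjoint union of three pairwise adjacent connected sets -/
structure Tri {V : Type} (G : SimpleGraph V) (T : Set V) (X : Fin 3 → Set V) : Prop where
  un : ∀ x, x ∈ T ↔ ∃ i, x ∈ X i
  dis : ∀ i j, i ≠ j → Disjoint (X i) (X j)
  cn : ∀ i, Cn G (X i)
  ad : ∀ i j, i ≠ j → Ad G (X i) (X j)

/-- no edges between different sets of the family -/
def Indep {V : Type} (G : SimpleGraph V) (A : Fin 3 → Set V) : Prop :=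
  ∀ i j, i ≠ j → ¬ Ad G (A i) (A j)

/-- three vertices `s` and three different components of `G - s` -/
structure Cut {V : Type} (G : SimpleGraph V) (s : Fin 3 → V) (D : Fin 3 → Set V) : Prop where
  inj : Function.Injective s
  cn : ∀ i, Cn G (D i)
  dis : ∀ i j, i ≠ j → Disjoint (D i) (D j)
  off : ∀ i j, s j ∉ D i
  nb : ∀ i, ∀ x ∈ D i, ∀ y, G.Adj x y → y ∈ D i ∨ ∃ j, y = s j

/-- (W1) a minor of a connected graph has a spanning model -/
def SpanStmt : Prop :=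
  ∀ (V W : Type) [Finite V] [Finite W] [Nonempty W] (G : SimpleGraph V) (H : SimpleGraph W),
    G.Connected → IsMinor H G → ∃ μ : W → Set V, Sp H G μ

/-- (W2) `K_{3,3}` with one edge on each side -/
def TwoStmt : Prop :=
  ∀ (V : Type) [Finite V] (G : SimpleGraph V) (A B : Fin 3 → Set V), Mod G A B →
    ∀ i k j l : Fin 3, i ≠ k → Ad G (A i) (A k) → j ≠ l → Ad G (B j) (B l) → IsMinor K5 G

/-- (W3) the centre lemma -/
def CentreStmt : Prop :=
  ∀ (V : Type) [Finite V] (G : SimpleGraph V) (T : Set V) (N : Fin 3 → Set V), Cn G T →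
    (∀ i, (T ∩ N i).Nonempty) →
    (∃ (X Y : Set V) (j k l : Fin 3), Split G T X Y ∧ j ≠ k ∧ k ≠ l ∧ j ≠ l ∧
      (X ∩ N j).Nonempty ∧ (X ∩ N k).Nonempty ∧ (Y ∩ N k).Nonempty ∧ (Y ∩ N l).Nonempty) ∨
    (∃ X : Fin 3 → Set V, Tri G T X ∧ ∀ i, (X i ∩ N i).Nonempty) ∨
    ∃ b ∈ T, ∀ C : Set V, C ⊆ T → b ∉ C → Cn G C → ∀ i j, i ≠ j →
      ¬ ((C ∩ N i).Nonempty ∧ (C ∩ N j).Nonempty)

/-- (W4) type 2 against type 2 -/
def LocalStmt : Prop :=
  ∀ (V : Type) [Finite V] (G : SimpleGraph V) (A B : Fin 3 → Set V), Mod G A B →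
    ∀ X Y : Set V, Split G (A 0) X Y → Ad G X (B 0) → Ad G X (B 1) → Ad G Y (B 1) →
    Ad G Y (B 2) → ∀ (j : Fin 3) (U W : Set V), Split G (B j) U W → ∀ p q r t : Fin 3, p ≠ q →
    Ad G U (A p) → Ad G U (A q) → r ≠ t → Ad G W (A r) → Ad G W (A t) →
    IsMinor K5 G ∨ IsMinor V8 G

/-- (W5) type 2 against type 3 (from (W4)) -/
def LocalTriStmt : Prop :=
  ∀ (V : Type) [Finite V] (G : SimpleGraph V) (A B : Fin 3 → Set V), Mod G A B →
    ∀ X Y : Set V, Split G (A 0) X Y → Ad G X (B 0) → Ad G X (B 1) → Ad G Y (B 1) →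
    Ad G Y (B 2) → ∀ (j : Fin 3) (U : Fin 3 → Set V), Tri G (B j) U → (∀ i, Ad G (U i) (A i)) →
    IsMinor K5 G ∨ IsMinor V8 G

/-- (W6) the first stage (from (W2)) -/
def StageOneStmt : Prop :=
  ∀ (V : Type) [Finite V] (G : SimpleGraph V) (A B : Fin 3 → Set V), Mod G A B →
    ¬ IsMinor K5 G → (∃ s D, Cut G s D) ∨ ∃ (A B : Fin 3 → Set V) (X Y : Set V), Mod G A B ∧
      Indep G A ∧ Indep G B ∧ Split G (A 0) X Y ∧ Ad G X (B 0) ∧ Ad G X (B 1) ∧ Ad G Y (B 1) ∧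
      Ad G Y (B 2)

/-- (W7) the second stage (from (W3), (W4), (W5)) -/
def StageTwoStmt : Prop :=
  ∀ (V : Type) [Finite V] (G : SimpleGraph V) (A B : Fin 3 → Set V), Mod G A B →
    Indep G A → Indep G B → ∀ X Y : Set V, Split G (A 0) X Y → Ad G X (B 0) → Ad G X (B 1) →
    Ad G Y (B 1) → Ad G Y (B 2) → ¬ IsMinor K5 G → ¬ IsMinor V8 G → ∃ s D, Cut G s D

/-- (W8a) `V_8` with one more edge -/
def V8EdgeStmt : Prop :=
  ∀ (V : Type) [Finite V] (G : SimpleGraph V) (μ : Fin 8 → Set V), Sp V8 G μ →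
    ∀ a b, a ≠ b → ¬ V8.Adj a b → Ad G (μ a) (μ b) → IsMinor K5 G

/-- (W8) a 3-connected graph with a `V_8` minor and no `K_5` minor (from (W1), (W3), (W8a)) -/
def V8Stmt : Prop :=
  ∀ (V : Type) [Finite V] (G : SimpleGraph V), Conn3 G → IsMinor V8 G → ¬ IsMinor K5 G →
    Nat.card V = 8

/-- (W9) Wagner's theorem, one step (from the rows above and `ThmB`) -/
def WagnerStmt : Prop :=
  ∀ (V : Type) [Finite V] (G : SimpleGraph V), Conn3 G → 4 ≤ Nat.card V → ¬ IsMinor K5 G →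
    (∃ σ : Equiv.Perm G.Dart, PlaneMap G σ) ∨ Nat.card V = 8 ∨ ∃ s D, Cut G s D

/-- the part `D` of `G` with the triangle on the vertices `s` -/
def torso {V : Type} (G : SimpleGraph V) (s : Fin 3 → V) (D : Set V) :
    SimpleGraph {x : V // x ∈ D ∨ ∃ j, x = s j} where
  Adj x y := x ≠ y ∧ (G.Adj x y ∨ (∃ i, x.1 = s i) ∧ ∃ j, y.1 = s j)
  symm := ⟨fun _ _ h => ⟨h.1.symm, h.2.elim (fun h => Or.inl h.symm) fun h => Or.inr h.symm⟩⟩
  loopless := ⟨fun _ h => h.1 rfl⟩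

/-- (W10) the torsos of the components of `G - s` are 3-connected and have no `K_5` minor -/
def TorsoStmt : Prop :=
  ∀ (V : Type) [Finite V] (G : SimpleGraph V), Conn3 G → ¬ IsMinor K5 G →
    ∀ (s : Fin 3 → V) (D : Fin 3 → Set V), Cut G s D → ∀ C : Set V, Cn G C → (∀ j, s j ∉ C) →
    (∀ x ∈ C, ∀ y, G.Adj x y → y ∈ C ∨ ∃ j, y = s j) →
    Conn3 (torso G s C) ∧ ¬ IsMinor K5 (torso G s C) ∧
      Nat.card {x : V // x ∈ C ∨ ∃ j, x = s j} < Nat.card V ∧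
      4 ≤ Nat.card {x : V // x ∈ C ∨ ∃ j, x = s j}

end Vale.Agent.P235.K5.W
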